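import Mathlib
import Vale.Agent.Lib.P249.Assemble

/-!
Every finite subset of `L_p` embeds into `ℓ_p^d` with distortion `D`, for some `d` that is
linear in the number of points up to a power of its logarithm.
-/

open MeasureTheory

/-- For `p ≥ 1` and `D > 1`, any `n ≥ 2` points of any real `L_p(μ)` map into `ℓ_p^d` with
distortion at most `D`, where `d ≤ 13 * 6^p * ((D^p + 1) / (D^p - 1))^2 * n * (log n)^(p + 2)`. -/
theorem Vale.Agent.Results.P249.NearLinear.result {p D : ℝ} (hp : 1 ≤ p) (hD : 1 < D)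
    {Ω : Type*} [MeasurableSpace Ω] (μ : Measure Ω)
    (S : Finset (Lp ℝ (ENNReal.ofReal p) μ)) (hS : 2 ≤ S.card) :
    ∃ (d : ℕ) (f : Lp ℝ (ENNReal.ofReal p) μ → Fin d → ℝ),
      (d : ℝ) ≤ 13 * 6 ^ p * ((D ^ p + 1) / (D ^ p - 1)) ^ 2 * S.card *
        Real.log S.card ^ (p + 2) ∧
      ∀ x ∈ S, ∀ y ∈ S,
        ‖x - y‖ ≤ (∑ k, |f x k - f y k| ^ p) ^ (1 / p) ∧
        (∑ k, |f x k - f y k| ^ p) ^ (1 / p) ≤ D * ‖x - y‖ := by
  have hp0 : 0 < p := by linarith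
  have hDp : 1 < D ^ p := Real.one_lt_rpow hD hp0
  set ε := (D ^ p - 1) / (D ^ p + 1) with hε
  have hpos : 0 < D ^ p + 1 := by linarith
  have hε0 : 0 < ε := div_pos (by linarith) hpos
  have hε1 : ε < 1 := by
    rw [hε, div_lt_one hpos]
    linarith
  obtain ⟨m, F, hm, hF⟩ := Vale.Agent.Lib.P249.embed_core hp hε0 hε1 S hS
  have hinv : 1 / ε = (D ^ p + 1) / (D ^ p - 1) := by
    rw [hε, one_div_div]
  rw [hinv] at hm
  refine ⟨m, F, hm, ?_⟩
  intro x hx y hy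
  obtain ⟨h1, h2⟩ := hF x hx y hy
  have hratio : (1 + ε) / (1 - ε) = D ^ p := by
    have hne : D ^ p - 1 ≠ 0 := by linarith
    rw [hε]
    field_simp
    ring
  rw [hratio] at h2
  have : Fact (1 ≤ ENNReal.ofReal p) := ⟨ENNReal.one_le_ofReal.mpr hp⟩
  have hn : 0 ≤ ‖x - y‖ := norm_nonneg _
  have hDpos : 0 ≤ D := by linarith
  have hs : 0 ≤ ∑ k, |F x k - F y k| ^ p :=
    Finset.sum_nonneg fun k _ => Real.rpow_nonneg (abs_nonneg _) p
  constructor
  · calc ‖x - y‖ = (‖x - y‖ ^ p) ^ (1 / p) := by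
          rw [← Real.rpow_mul hn, mul_one_div_cancel hp0.ne', Real.rpow_one]
      _ ≤ _ := Real.rpow_le_rpow (Real.rpow_nonneg hn p) h1 (by positivity)
  · calc (∑ k, |F x k - F y k| ^ p) ^ (1 / p) ≤ (D ^ p * ‖x - y‖ ^ p) ^ (1 / p) :=
          Real.rpow_le_rpow hs h2 (by positivity)
      _ = D * ‖x - y‖ := by
          rw [← Real.mul_rpow hDpos hn, ← Real.rpow_mul (mul_nonneg hDpos hn),
            mul_one_div_cancel hp0.ne', Real.rpow_one]
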